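import Vale.Agent.P251CY.Lay

/-!
# Statement layer (compact form): the Brown-Peterson spectrum

The same definition as in `P257/H80/StBP.lean`; homomorphisms of ring spectra are the `IsMonHom` of
Mathlib.
-/

open CategoryTheory

namespace Vale.Agent.P251CY

open Vale.Agent.P251.St Vale.Agent.P251.St.SHCat

/-- `B`, with the complex orientation `o` and the homomorphism
`φ : ℤ[v_1, v_2, …] → π_* B`, is the Brown-Peterson spectrum at `p`: it is the initial `p`-local
commutative ring spectrum with a `p`-typical complex orientation (there is exactly one homomorphism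
of ring spectra which carries the Thom classes to the Thom classes). The elements `φ v_i` of
`π_{2(p^i-1)} B` are the Hazewinkel generators. -/
structure IsBrownPeterson {T : SHCat} {S : Susp T} {B : RingSp T} (p : ℕ) (o : Oriented S B)
    (φ : GHom S p B) : Prop where
  typ : IsPTyp p o φ
  univ : ∀ (R : RingSp T) (o' : Oriented S R) (φ' : GHom S p R), IsPTyp p o' φ' →
    ∃! f : Hom B.obj R.obj, IsMonHom f ∧
      ∀ (n : ℕ) (A : Type) [Fintype A], o'.θ n A = comp (o.θ n A) (tenR f (Sn S n))

end Vale.Agent.P251CY
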