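import Vale.Agent.P221CY.BP
import Vale.Agent.P251CY.Br

/-!
# The compact form of `IsBrownPeterson` agrees with the old one
-/

open CategoryTheory MonoidalCategory

namespace Vale.Agent.P251CY

open Vale.Agent.P251.St Vale.Agent.P251.St.SHCat

variable {T : SHCat} {S : Susp T} {p : ℕ}

theorem carries_iff {B R : RingSp T} (f : Hom B.obj R.obj) (o : Oriented S B) (o' : Oriented S R) :
    (IsMonHom f ∧
      ∀ (n : ℕ) (A : Type) [Fintype A], o'.θ n A = comp (o.θ n A) (tenR f (Sn S n))) ↔
    P257.St.IsRingMap (R := B.toOld) (R' := R.toOld) f ∧ P257.St.Carries f o.toOld o'.toOld := by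
  refine and_congr ⟨fun h => ⟨h.one_hom, h.mul_hom⟩, fun h => ⟨h.1, h.2⟩⟩ ?_
  refine forall_congr' fun n => forall_congr' fun A => forall_congr' fun _ => ?_
  have e : tenR f (Sn S n) = tenHom f (ident (Sn S n)) := (tensorHom_id f _).symm
  rw [e]
  exact eq_comm

theorem isBrownPeterson_iff {B : RingSp T} (o : Oriented S B) (φ : GHom S p B) :
    IsBrownPeterson p o φ ↔ P257.St.IsBrownPeterson p o.toOld φ.toOld := by
  constructor
  · intro h
    refine ⟨(isPTyp_iff _ _).1 h.typ, fun R o' φ' h' => ?_⟩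
    have key := h.univ (RingSp.ofOld R) (Oriented.ofOld (R := RingSp.ofOld R) o')
      (GHom.ofOld (R := RingSp.ofOld R) φ') ((isPTyp_iff _ _).2 h')
    exact (existsUnique_congr fun f => carries_iff (R := RingSp.ofOld R) f o
      (Oriented.ofOld (R := RingSp.ofOld R) o')).1 key
  · intro h
    refine ⟨(isPTyp_iff _ _).2 h.typ, fun R o' φ' h' => ?_⟩
    exact (existsUnique_congr fun f => carries_iff f o o').2
      (h.univ R.toOld o'.toOld φ'.toOld ((isPTyp_iff _ _).1 h'))

end Vale.Agent.P251CY
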