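import Vale.Agent.P221CY.BP
import Mathlib.CategoryTheory.Monoidal.Mod

/-!
# P221, statement layer (compact form): standard forms of `BP⟨n⟩` and fp-spectra

The same notions as in `P221/St/IntA.lean`; modules over ring spectra are the `ModObj` of Mathlib.
-/

open CategoryTheory

noncomputable section

namespace Vale.Agent.P251CY

open Vale.Agent.P251.St Vale.Agent.P251.St.SHCat
open scoped MonoidalCategory.MonoidalLeftAction

variable {T : SHCat}

/-- `π_k X` -/
abbrev Pi (k : ℤ) (X : T.C) : Type := Hom (sphere T k) X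

/-- `X` is `p`-complete: there are no nonzero maps `W ⟶ X` if `p` is invertible on `W`. -/
def PComplete (p : ℕ) (X : T.C) : Prop :=
  ∀ W : T.C, IsIso (zmul p (ident W)) → Subsingleton (Hom W X)

/-- `c : X ⟶ Y` is the `p`-completion of `X`. -/
def IsPCompletion (p : ℕ) {X Y : T.C} (c : Hom X Y) : Prop :=
  PComplete p Y ∧ ∀ Z : T.C, PComplete p Z → ∀ f : Hom X Z, ∃! g : Hom Y Z, comp c g = f

variable {R : RingSp T} {S : Susp T} {p : ℕ}

/-- `x ∈ π_{2d} R` is a polynomial generator in the place of `v_{j+1}` (the variable `X j`): up to a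
factor prime to `p` it is the value of a homogeneous polynomial `w ∈ ℤ[v_1, v_2, …]` in which the
coefficient of `v_{j+1}` is prime to `p` (so `d = p^{j+1} - 1`). For `R = BP`, where
`π_* R = ℤ_(p)[v_1, v_2, …]`, this means that `x` is the product of a unit with `v_{j+1}`, modulo
decomposable elements. -/
def IsPolyGen (φ : GHom S p R) (j : ℕ) {d : ℕ} (x : PiR S R d) : Prop :=
  ∃ (m : ℤ) (w : VPoly p d), ¬ (p : ℤ) ∣ m ∧
    ¬ (p : ℤ) ∣ MvPolynomial.coeff (Finsupp.single j 1) w.pol ∧ φ.val w = zmul m x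

/-- the multiplication `R ⊗ S^{2k} ⟶ R` by `x ∈ π_{2k} R` -/
abbrev mulBy {k : ℕ} (x : PiR S R k) : Hom (ten R.obj (Sn S k)) R.obj := comp (tenL R.obj x) R.mul

/-- `q : R ⟶ D` is the quotient of `R` by the elements `x_0, x_1, …` of its homotopy, as a homotopy
`R`-module: `D` is an `R`-module, `q` is `R`-linear and onto on homotopy, and the kernel of `π_* q`
consists of the finite sums of products `b_j x_j`. -/
inductive IsQuotient {d : ℕ → ℕ} (x : ∀ j, PiR S R (d j)) {D : T.C} (q : Hom R.obj D) : Prop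
  | mk (a : ModObj R.obj D) : @IsModHom _ _ _ _ _ _ R.obj _ _ _ (ModObj.regular R.obj) a q →
      (∀ (k : ℤ) (y : Pi k D), ∃ u : Pi k R.obj, y = comp u q) →
      (∀ (k : ℤ) (u : Pi k R.obj), comp u q = nul _ D ↔
        ∃ (N : ℕ) (b : ∀ j, Pi k (ten R.obj (Sn S (d j)))),
          u = hsum N fun j => comp (b j) (mulBy (x j))) → IsQuotient x q

/-- `B` is a standard form of `BP⟨n⟩_p`: the `p`-completion of the quotient of the Brown-Peterson
spectrum by polynomial generators in the places of `v_{n+1}, v_{n+2}, …`. -/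
def IsStandardForm (S : Susp T) (p n : ℕ) (B : T.C) : Prop :=
  ∃ (P : RingSp T) (o : Oriented S P) (φ : GHom S p P) (d : ℕ → ℕ) (x : ∀ j, PiR S P (d j))
    (D : T.C) (q : Hom P.obj D) (c : Hom D B),
    IsBrownPeterson p o φ ∧ (∀ j, IsPolyGen φ (n + j) (x j)) ∧ IsQuotient x q ∧ IsPCompletion p c

/-- `IsGenMoore φ j V`: `V` is a generalised Moore spectrum `S / (p ^ i_0, v_1 ^ i_1, …, v_j ^ i_j)`,
of type `j + 1`: there are `V_0, …, V_j = V`, where `V_0` is the cofibre of `p ^ i_0` on the sphere
spectrum, `i_0 > 0`, and `V_{l+1}` is the cofibre of a self map `f : Σ^{2k} V_l ⟶ V_l` which induces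
the multiplication by `v_{l+1} ^ i` on `R_* V_l`, `i > 0`: the maps `R ⊗ S^{2k} ⊗ V_l ⟶ R ⊗ V_l`
given by `f` and by the multiplication with `v_{l+1} ^ i` are equal on homotopy groups. (Here
`R = BP`, and the `φ (v_l)` are the Hazewinkel generators.) -/
inductive IsGenMoore (φ : GHom S p R) : ℕ → T.C → Prop
  | base {i : ℕ} {V : T.C} {g : Hom T.one V} {h} :
      0 < i → Dist (zmul ((p : ℤ) ^ i) (ident T.one)) g h → IsGenMoore φ 0 V
  | step {j k i : ℕ} {V W : T.C} {f : Hom (ten (Sn S k) V) V} {g : Hom V W} {h} {w : VPoly p k} :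
      IsGenMoore φ j V → 0 < i → w.pol = MvPolynomial.X j ^ i →
        (∀ (m : ℤ) (y : Pi m _), comp y (tenL R.obj f) =
          comp y (comp (assocInv _ _ V) (tenR (mulBy (φ.val w)) V))) →
        Dist f g h → IsGenMoore φ (j + 1) W

/-- `X` is an fp-spectrum of fp-type at most `n`: it is `p`-complete and bounded below, and there is
a generalised Moore spectrum `V` of type `n + 1` such that `π_* (X ⊗ V)` is finite. (By the thick
subcategory theorem and the periodicity theorem this holds for some finite `p`-local spectrum `V` of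
type `n + 1` if and only if it holds for all of them, and generalised Moore spectra exist.) -/
def IsFpType (S : Susp T) (p n : ℕ) (X : T.C) : Prop :=
  PComplete p X ∧ ∃ (P : RingSp T) (o : Oriented S P) (φ : GHom S p P) (V : T.C) (N : ℤ),
    IsBrownPeterson p o φ ∧ IsGenMoore φ n V ∧ ∀ k : ℤ, (k < -N → Subsingleton (Pi k X)) ∧
      Finite (Pi k (ten X V)) ∧ (N < |k| → Subsingleton (Pi k (ten X V)))

end Vale.Agent.P251CY
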