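import Vale.Agent.P221CY.St
import Vale.Agent.P221CY.BPBr
import Vale.Agent.P221.St.IntA
import Mathlib.CategoryTheory.Triangulated.Generators

/-!
# The compact statement layer of P221 agrees with the old one
-/

open CategoryTheory MonoidalCategory Limits Pretriangulated

namespace Vale.Agent.P251CY

open Vale.Agent.P251.St Vale.Agent.P251.St.SHCat Vale.Agent.P221
open scoped MonoidalCategory.MonoidalLeftAction

variable {T : SHCat}

theorem subsingleton_iff_nul (A B : T.C) :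
    Subsingleton (Hom A B) ↔ ∀ g : Hom A B, g = StI.nul A B :=
  subsingleton_iff_forall_eq (StI.nul A B)

theorem pComplete_iff (p : ℕ) (X : T.C) : PComplete p X ↔ StI.PComplete p X :=
  forall_congr' fun W => imp_congr Iff.rfl (subsingleton_iff_nul W X)

theorem isPCompletion_iff (p : ℕ) {X Y : T.C} (c : Hom X Y) :
    IsPCompletion p c ↔ StI.IsPCompletion p c :=
  and_congr (pComplete_iff p Y) (forall_congr' fun Z => imp_congr (pComplete_iff p Z) Iff.rfl)

variable {R : RingSp T} {S : Susp T} {p : ℕ}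

theorem IsPolyGen.deg {φ : GHom S p R} {j d : ℕ} {x : PiR S R d} (h : IsPolyGen φ j x) :
    d = p ^ (j + 1) - 1 := by
  obtain ⟨m, w, -, h2, -⟩ := h
  have h3 : MvPolynomial.coeff (Finsupp.single j 1) w.1 ≠ 0 := fun e => h2 (by
    change (p : ℤ) ∣ MvPolynomial.coeff (Finsupp.single j 1) w.1
    rw [e]; exact dvd_zero _)
  have h4 := w.2 h3
  rw [Finsupp.weight_single, one_smul] at h4
  exact h4.symm

theorem isPolyGen_iff (φ : GHom S p R) (j : ℕ) (x : PiR S R (p ^ (j + 1) - 1)) :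
    IsPolyGen φ j x ↔ StI.IsPolyGen φ.toOld (j + 1) x :=
  exists_congr fun _ => exists_congr fun _ => and_congr Iff.rfl (and_congr Iff.rfl eq_comm)

theorem mulBy_eq {k : ℕ} (x : PiR S R k) : mulBy x = StI.mulBy (R := R.toOld) x := by
  have e : tenL R.obj x = tenHom (ident R.obj) x := (id_tensorHom _ x).symm
  exact congrArg (fun t => comp t R.mul) e

theorem exists_extend {F : ℕ → Type} (z : ∀ j, F j) (n : ℕ) (c : ∀ j, F (n + j + 1)) :
    ∃ b : ∀ j, F j, ∀ j, b (n + j + 1) = c j := by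
  have key : ∀ j, ∃ v : F j, ∀ i, n + i + 1 = j → HEq v (c i) := by
    intro j
    by_cases h : ∃ i, n + i + 1 = j
    · obtain ⟨i, rfl⟩ := h
      refine ⟨c i, fun i' h' => ?_⟩
      obtain rfl : i' = i := by omega
      rfl
    · exact ⟨z j, fun i hi => (h ⟨i, hi⟩).elim⟩
  choose b hb using key
  exact ⟨b, fun j => eq_of_heq (hb _ j rfl)⟩

theorem sum_Ioc_eq {M : Type} [AddCommMonoid M] (f : ℕ → M) (n N : ℕ) :
    ∑ j ∈ Finset.Ioc n (n + N), f j = ∑ j ∈ Finset.range N, f (n + j + 1) := by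
  induction N with
  | zero => simp
  | succ N ih =>
    rw [Finset.sum_range_succ, ← ih, ← Nat.add_assoc, Finset.sum_Ioc_succ_top (Nat.le_add_right _ _)]

theorem ker_iff (n : ℕ) (y : ∀ j, PiR S R (p ^ j - 1)) (k : ℤ) (u : Pi k R.obj) :
    (∃ (N : ℕ) (b : ∀ j, Pi k (ten R.obj (Sn S (p ^ (n + j + 1) - 1)))),
      u = hsum N fun j => comp (b j) (mulBy (y (n + j + 1)))) ↔
    ∃ (N : ℕ) (b : ∀ j : ℕ, Pi k (ten R.obj (Sn S (p ^ j - 1)))),
      u = ∑ j ∈ Finset.Ioc n N, comp (b j) (StI.mulBy (R := R.toOld) (y j)) := by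
  constructor
  · rintro ⟨N, c, rfl⟩
    obtain ⟨b, hb⟩ := exists_extend (F := fun j => Pi k (ten R.obj (Sn S (p ^ j - 1))))
      (fun _ => 0) n c
    refine ⟨n + N, b, ?_⟩
    rw [sum_Ioc_eq]
    exact Finset.sum_congr rfl fun j _ => by rw [hb, ← mulBy_eq]
  · rintro ⟨N, b, rfl⟩
    rcases le_total n N with h | h
    · obtain ⟨N, rfl⟩ := Nat.exists_eq_add_of_le h
      refine ⟨N, fun j => b (n + j + 1), ?_⟩
      rw [sum_Ioc_eq]
      exact Finset.sum_congr rfl fun j _ => by rw [← mulBy_eq]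
    · refine ⟨0, fun j => b (n + j + 1), ?_⟩
      rw [Finset.Ioc_eq_empty (not_lt.2 h)]
      rfl

theorem isQuotient_iff (n : ℕ) (y : ∀ j, PiR S R (p ^ j - 1)) {D : T.C} (q : Hom R.obj D) :
    IsQuotient (d := fun j => p ^ (n + j + 1) - 1) (fun j => y (n + j + 1)) q ↔
      ∃ a, StI.IsQuotient (R := R.toOld) n y a q := by
  constructor
  · rintro ⟨a, h1, h2, h3⟩
    refine ⟨a.smul, ⟨?_, a.mul_smul⟩, h1.smul_hom, fun k v => ?_,
      fun k u => (h3 k u).trans (ker_iff n y k u)⟩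
    · exact (Iso.inv_comp_eq (λ_ D)).2 (a.one_smul.trans (Category.comp_id _).symm)
    · obtain ⟨u, hu⟩ := h2 k v
      exact ⟨u, hu.symm⟩
  · rintro ⟨a, h⟩
    refine ⟨⟨a, ((Iso.inv_comp_eq (λ_ D)).1 h.act.1).trans (Category.comp_id _), h.act.2⟩,
      @IsModHom.mk _ _ _ _ _ _ R.obj _ _ _ (ModObj.regular R.obj) (_) q h.map, fun k v => ?_,
      fun k u => (h.ker k u).trans (ker_iff n y k u).symm⟩
    obtain ⟨u, hu⟩ := h.surj k v
    exact ⟨u, hu.symm⟩

theorem isStandardForm_iff (S : Susp T) (p n : ℕ) (B : T.C) :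
    IsStandardForm S p n B ↔ StI.IsStandardForm S p n B := by
  constructor
  · rintro ⟨P, o, φ, d, x, D, q, c, h1, h2, h3, h4⟩
    obtain rfl : d = fun j => p ^ (n + j + 1) - 1 := funext fun j => (h2 j).deg
    obtain ⟨y, hy⟩ := exists_extend (F := fun j => PiR S P (p ^ j - 1)) (fun _ => 0) n x
    obtain rfl : x = fun j => y (n + j + 1) := (funext hy).symm
    obtain ⟨a, ha⟩ := (isQuotient_iff n y q).1 h3
    refine ⟨P.toOld, o.toOld, φ.toOld, y, D, a, q, c, (isBrownPeterson_iff o φ).1 h1,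
      fun j hj => ?_, ha, (isPCompletion_iff p c).1 h4⟩
    obtain ⟨i, rfl⟩ := Nat.exists_eq_add_of_lt hj
    exact (isPolyGen_iff φ (n + i) _).1 (h2 i)
  · rintro ⟨P, o, φ, y, D, a, q, c, h1, h2, h3, h4⟩
    exact ⟨RingSp.ofOld P, Oriented.ofOld (R := RingSp.ofOld P) o,
      GHom.ofOld (R := RingSp.ofOld P) φ, fun j => p ^ (n + j + 1) - 1, fun j => y (n + j + 1),
      D, q, c, (isBrownPeterson_iff _ _).2 h1,
      fun j => (isPolyGen_iff _ (n + j) _).2 (h2 _ (by omega)),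
      (isQuotient_iff (R := RingSp.ofOld P) n y q).2 ⟨a, h3⟩, (isPCompletion_iff p c).2 h4⟩

theorem isGenMoore_iff (φ : GHom S p R) (j : ℕ) (V : T.C) :
    IsGenMoore φ j V ↔ StI.IsGenMoore φ.toOld (j + 1) V := by
  constructor
  · intro h
    induction h with
    | base h1 h2 => exact .base h1 h2
    | step _ h1 h2 h3 h4 ih =>
      refine .step ih h1 h2 (fun m y => (h3 m y).trans ?_) h4
      rw [mulBy_eq]
      rfl
  · intro h
    have key : ∀ (i : ℕ) (W : T.C), StI.IsGenMoore φ.toOld i W →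
        ∃ l, i = l + 1 ∧ IsGenMoore φ l W := by
      intro i W hW
      induction hW with
      | base h1 h2 => exact ⟨0, rfl, .base h1 h2⟩
      | step _ h1 h2 h3 h4 ih =>
        obtain ⟨l, rfl, hl⟩ := ih
        refine ⟨l + 1, rfl, .step hl h1 h2 (fun m y => (h3 m y).trans ?_) h4⟩
        rw [mulBy_eq]
        rfl
    obtain ⟨l, e, hl⟩ := key _ _ h
    obtain rfl : j = l := by omega
    exact hl

theorem isFpType_iff (S : Susp T) (p n : ℕ) (X : T.C) :
    IsFpType S p n X ↔ StI.IsFpType S p n X := by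
  constructor
  · rintro ⟨h1, P, o, φ, V, N, h2, h3, h4⟩
    exact ⟨(pComplete_iff p X).1 h1,
      ⟨-N, fun k hk => (subsingleton_iff_nul _ _).1 ((h4 k).1 hk)⟩, P.toOld, o.toOld, φ.toOld,
      V, N, (isBrownPeterson_iff o φ).1 h2, (isGenMoore_iff φ n V).1 h3, fun k =>
        ⟨(h4 k).2.1, fun hk => (subsingleton_iff_nul _ _).1 ((h4 k).2.2 hk)⟩⟩
  · rintro ⟨h1, ⟨M, hM⟩, P, o, φ, V, N, h2, h3, h4⟩
    refine ⟨(pComplete_iff p X).2 h1, RingSp.ofOld P, Oriented.ofOld (R := RingSp.ofOld P) o,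
      GHom.ofOld (R := RingSp.ofOld P) φ, V, max N (-M), (isBrownPeterson_iff _ _).2 h2,
      (isGenMoore_iff _ n V).2 h3, fun k => ⟨fun hk => (subsingleton_iff_nul _ _).2 (hM k ?_),
        (h4 k).1, fun hk => (subsingleton_iff_nul _ _).2 ((h4 k).2 ?_)⟩⟩
    · have := le_max_right N (-M)
      omega
    · exact lt_of_le_of_lt (le_max_left _ _) hk

theorem thickOf_of_triangEnvelope (Q : T.C → Prop) {X : T.C}
    (h : ObjectProperty.triangEnvelope Q X) : StI.ThickOf Q X := by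
  let K : ObjectProperty T.C := StI.ThickOf Q
  have : K.IsStableUnderRetracts := ⟨fun r hY => .retract r.i r.r r.retract hY⟩
  have : K.ContainsZero := ⟨⟨_, isZero_zero T.C, .zero ((isZero_zero T.C).eq_of_src _ _)⟩⟩
  have : K.IsStableUnderShift ℤ := ⟨fun a => ⟨fun _ hX => .susp a hX⟩⟩
  have : K.IsTriangulatedClosed₃ :=
    .mk' fun t ht h1 h2 => .cof (f := t.mor₁) (g := t.mor₂) (h := t.mor₃) ht h1 h2
  have : K.IsTriangulatedClosed₂ := .of_isTriangulatedClosed₃
  have : K.IsTriangulated := {}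
  exact (ObjectProperty.triangEnvelope_le_iff Q (Q := K)).2 (fun _ hY => .base hY) X h

theorem triangEnvelope_iff (B X : T.C) :
    ObjectProperty.triangEnvelope (fun Y => Y = B) X ↔ StI.ThickOf (fun Y => Y = B) X := by
  refine ⟨thickOf_of_triangEnvelope _, fun h => ?_⟩
  let Q : ObjectProperty T.C := fun Y => Y = B
  have : Q.Nonempty := ⟨B, rfl⟩
  change Q.triangEnvelope X
  induction h with
  | base h => exact Q.le_triangEnvelope _ h
  | zero h => exact Q.triangEnvelope.prop_of_isZero ((IsZero.iff_id_eq_zero _).2 h)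
  | susp k _ ih => exact Q.triangEnvelope.le_shift k _ ih
  | cof h _ _ ih1 ih2 => exact Q.triangEnvelope.ext_of_isTriangulatedClosed₃ _ h ih1 ih2
  | retract i r h _ ih => exact Q.triangEnvelope.prop_of_retract ⟨i, r, h⟩ ih

end Vale.Agent.P251CY
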