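import Vale.Agent.P221CY.StBr
import Vale.Agent.P221X.Fin.Full

/-!
# The disproof of the Hahn-Wilson conjecture at height two, in the compact statement layer
-/

namespace Vale.Agent.P251CY

open Vale.Agent.P251.St (SHCat Susp)
open CategoryTheory

theorem not_hahnWilson (T : SHCat) (S : Susp T) (p : ℕ) (hp : p.Prime) (h5 : 5 ≤ p) :
    (∃ B : T.C, IsStandardForm S p 2 B) ∧ ∃ X : T.C, IsFpType S p 2 X ∧
      ∀ B : T.C, IsStandardForm S p 2 B →
        ¬ ObjectProperty.triangEnvelope (fun Y => Y = B) X := by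
  obtain ⟨⟨B, hB⟩, X, hX, h⟩ := P221X.Fin.full (S := S) hp h5
  exact ⟨⟨B, (isStandardForm_iff S p 2 B).2 hB⟩, X, (isFpType_iff S p 2 X).2 hX,
    fun B hB e => h B ((isStandardForm_iff S p 2 B).1 hB) ((triangEnvelope_iff B X).1 e)⟩

end Vale.Agent.P251CY
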